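import Vale.Agent.P112.H310.Main

/-!
# P112 / H295: the `L²` Kakeya inequality for groups of dense tubes (sparse form)

Dense tubes with arbitrary overlap of their dense sets. If through every point `z` there are
`n z` separated groups of at least `q` tubes, then `∫ n² ≤ C / q * ∑ |R|`: random sparsification
with probability `1 / q`, greedy admission (longest first) and the Kakeya inequality of H310.
-/

set_option linter.all false

namespace Vale.Agent.P112.H295

open MeasureTheory Set Vale.Agent.P112.H310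
open scoped ENNReal BigOperators

/-! ### greedy admission -/

theorem greedy {ι : Type*} (k : ι → ℕ) (V : ι → Set (ℝ × ℝ))
    (hm : ∀ i, MeasurableSet (V i)) (hfin : ∀ i, volume (V i) ≠ ∞)
    (hpos : ∀ i, 0 < volume.real (V i)) : ∀ (c : ℕ) (T : Finset ι), T.card = c →
    ∃ (P : Finset ι) (E : ι → Set (ℝ × ℝ)), P ⊆ T ∧
      (∀ i ∈ P, MeasurableSet (E i) ∧ E i ⊆ V i ∧ volume.real (V i) / 2 ≤ volume.real (E i)) ∧
      (∀ i ∈ P, ∀ j ∈ P, i ≠ j → Disjoint (E i) (E j)) ∧
      (∀ i ∈ T, i ∉ P → ∃ j ∈ P, k j ≤ k i ∧ (V j ∩ V i).Nonempty) := by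
  classical
  intro c
  induction c with
  | zero =>
    intro T hT
    have : T = ∅ := Finset.card_eq_zero.1 hT
    subst this
    exact ⟨∅, V, by simp, by simp, by simp, by simp⟩
  | succ c ih =>
    intro T hT
    have hne : T.Nonempty := by
      rw [← Finset.card_pos, hT]; omega
    obtain ⟨i0, hi0, hmax⟩ := Finset.exists_max_image T k hne
    have hc : (T.erase i0).card = c := by
      rw [Finset.card_erase_of_mem hi0, hT]; rfl
    obtain ⟨P, E, hPT, hE, hdis, hcov⟩ := ih (T.erase i0) hc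
    have hi0P : i0 ∉ P := fun h => (Finset.mem_erase.1 (hPT h)).1 rfl
    set U : Set (ℝ × ℝ) := ⋃ j ∈ P, V j with hU
    have hUm : MeasurableSet U := Finset.measurableSet_biUnion P (fun j _ => hm j)
    by_cases hbig : volume.real (V i0) / 2 ≤ volume.real (V i0 \ U)
    · refine ⟨insert i0 P, fun i => if i = i0 then V i0 \ U else E i, ?_, ?_, ?_, ?_⟩
      · intro i hi
        rcases Finset.mem_insert.1 hi with h | h
        · rw [h]; exact hi0
        · exact Finset.mem_of_mem_erase (hPT h)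
      · intro i hi
        rcases Finset.mem_insert.1 hi with h | h
        · subst h
          simp only [if_true]
          exact ⟨(hm _).diff hUm, Set.diff_subset, hbig⟩
        · have hne' : i ≠ i0 := fun h' => hi0P (h' ▸ h)
          simp only [if_neg hne']
          exact hE i h
      · intro i hi j hj hij
        rcases Finset.mem_insert.1 hi with h | h <;> rcases Finset.mem_insert.1 hj with h' | h'
        · exact absurd (h.trans h'.symm) hij
        · have hne' : j ≠ i0 := fun h'' => hi0P (h'' ▸ h')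
          simp only [if_pos h, if_neg hne']
          rw [Set.disjoint_left]
          intro p hp hp'
          exact hp.2 (Set.mem_biUnion h' ((hE j h').2.1 hp'))
        · have hne' : i ≠ i0 := fun h'' => hi0P (h'' ▸ h)
          simp only [if_pos h', if_neg hne']
          rw [Set.disjoint_left]
          intro p hp hp'
          exact hp'.2 (Set.mem_biUnion h ((hE i h).2.1 hp))
        · have hne1 : i ≠ i0 := fun h'' => hi0P (h'' ▸ h)
          have hne2 : j ≠ i0 := fun h'' => hi0P (h'' ▸ h')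
          simp only [if_neg hne1, if_neg hne2]
          exact hdis i h j h' hij
      · intro i hi hiP
        have h1 : i ≠ i0 := fun h => hiP (h ▸ Finset.mem_insert_self _ _)
        have h2 : i ∉ P := fun h => hiP (Finset.mem_insert_of_mem h)
        obtain ⟨j, hj, hk, hV⟩ := hcov i (Finset.mem_erase.2 ⟨h1, hi⟩) h2
        exact ⟨j, Finset.mem_insert_of_mem hj, hk, hV⟩
    · refine ⟨P, E, fun i hi => Finset.mem_of_mem_erase (hPT hi), hE, hdis, ?_⟩
      intro i hi hiP
      by_cases h1 : i = i0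
      · subst h1
        have h2 : (V i ∩ U).Nonempty := by
          by_contra hcon
          rw [Set.not_nonempty_iff_eq_empty] at hcon
          have h3 : V i \ U = V i := by
            ext p
            constructor
            · exact fun h => h.1
            · intro h
              refine ⟨h, fun hpU => ?_⟩
              have : p ∈ V i ∩ U := ⟨h, hpU⟩
              rw [hcon] at this
              exact this
          rw [h3] at hbig
          have := hpos i
          exact hbig (by linarith)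
        obtain ⟨p, hp1, hp2⟩ := h2
        rw [hU] at hp2
        simp only [Set.mem_iUnion, exists_prop] at hp2
        obtain ⟨j, hj, hpj⟩ := hp2
        exact ⟨j, hj, hmax j (Finset.mem_of_mem_erase (hPT hj)), ⟨p, hpj, hp1⟩⟩
      · exact hcov i (Finset.mem_erase.2 ⟨h1, hi⟩) hiP

/-- A system of dense tubes (no bound on the overlap of the dense sets `V`). -/
structure SysV (ι : Type*) where
  w : ℝ
  A : ℝ
  δ : ℝ
  ε : ℝ
  u : ℝ → ℝ → ℝ
  k : ι → ℕ
  m : ι → ℤ
  s : ι → ℝ
  b : ι → ℝ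
  V : ι → Set (ℝ × ℝ)
  w_pos : 0 < w
  one_le_A : 1 ≤ A
  δ_pos : 0 < δ
  ε_nonneg : 0 ≤ ε
  ε_le : ε ≤ 1 / 16
  u_meas : Measurable (Function.uncurry u)
  u_lip : ∀ x y y', |u x y - u x y'| ≤ ε * |y - y'|
  V_meas : ∀ i, MeasurableSet (V i)
  V_sub : ∀ i, V i ⊆ Reg (D (k i) (m i)) (fun x => b i + s i * x) w
  V_slope : ∀ i, ∀ p ∈ V i, |u p.1 p.2 - s i| ≤ A * w / (2 : ℝ)⁻¹ ^ k i
  V_dens : ∀ i, δ * volume.real (Reg (D (k i) (m i)) (fun x => b i + s i * x) w)
      ≤ volume.real (V i)

namespace SysV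

variable {ι : Type*} (S : SysV ι)

/-- length of tube `i` -/
noncomputable def l (i : ι) : ℝ := (2 : ℝ)⁻¹ ^ S.k i

/-- base interval of tube `i` -/
def I (i : ι) : Set ℝ := D (S.k i) (S.m i)

/-- center line of tube `i` -/
def line (i : ι) (x : ℝ) : ℝ := S.b i + S.s i * x

/-- the tube -/
def R (i : ι) : Set (ℝ × ℝ) := Reg (S.I i) (S.line i) S.w

/-- `j` is `i` or a longer tube whose dense set meets that of `i` -/
def Above (j i : ι) : Prop := j = i ∨ (S.k j ≤ S.k i ∧ (S.V j ∩ S.V i).Nonempty)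

theorem l_pos (i : ι) : 0 < S.l i := by unfold l; positivity

theorem line_meas (i : ι) : Measurable (S.line i) := by
  unfold line; fun_prop

theorem vr_Reg (i : ι) {r : ℝ} (hr : 0 ≤ r) :
    volume.real (Reg (S.I i) (S.line i) r) = S.l i * (2 * r) := by
  have h := Sys.vr_Reg (show MeasurableSet (S.I i) from measurableSet_D _ _)
    (S.line_meas i) hr
  rw [h]
  unfold I l
  rw [Sys.vr_D]

theorem Reg_ne_top (i : ι) (r : ℝ) : volume (Reg (S.I i) (S.line i) r) ≠ ∞ :=
  Sys.volR_ne_top (measurableSet_D _ _) (Sys.vol_D_ne_top _ _) (S.line_meas i) r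

theorem V_fin (i : ι) : volume (S.V i) ≠ ∞ :=
  ne_top_of_le_ne_top (S.Reg_ne_top i S.w) (measure_mono (S.V_sub i))

theorem vr_R (i : ι) : volume.real (S.R i) = S.l i * (2 * S.w) := S.vr_Reg i S.w_pos.le

theorem V_pos (i : ι) : 0 < volume.real (S.V i) := by
  have h := S.V_dens i
  have h1 := S.vr_R i
  unfold R I line at h1
  rw [h1] at h
  have := S.l_pos i
  have := S.w_pos
  have := S.δ_pos
  have : 0 < S.δ * (S.l i * (2 * S.w)) := by positivity
  linarith

/-- dilation constant -/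
noncomputable def L (B : ℝ) : ℝ := B + 2 + 2 * S.A

theorem L_pos {B : ℝ} (hB : 0 ≤ B) : 0 < S.L B := by
  unfold L; have := S.one_le_A; linarith

theorem one_le_L {B : ℝ} (hB : 0 ≤ B) : 1 ≤ S.L B := by
  unfold L; have := S.one_le_A; linarith

/-- the admitted tubes as a system in the sense of H310 -/
noncomputable def toSys {B : ℝ} (hB : 0 ≤ B) (P : Finset ι) (E : ι → Set (ℝ × ℝ))
    (hE : ∀ i ∈ P, MeasurableSet (E i) ∧ E i ⊆ S.V i ∧
      volume.real (S.V i) / 2 ≤ volume.real (E i))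
    (hdis : ∀ i ∈ P, ∀ j ∈ P, i ≠ j → Disjoint (E i) (E j)) : Sys {i // i ∈ P} where
  w := S.L B * S.w
  A := 1
  M := 1
  δ := S.δ / (2 * S.L B)
  ε := S.ε
  u := S.u
  k := fun i => S.k i
  m := fun i => S.m i
  s := fun i => S.s i
  b := fun i => S.b i
  E := fun i => E i
  w_pos := mul_pos (S.L_pos hB) S.w_pos
  one_le_A := le_rfl
  M_pos := one_pos
  δ_pos := by
    have := S.L_pos hB
    have := S.δ_pos
    positivity
  ε_nonneg := S.ε_nonneg
  ε_le := S.ε_le
  u_meas := S.u_meas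
  u_lip := S.u_lip
  E_meas := fun i => (hE i i.2).1
  E_sub := fun i => by
    intro p hp
    have h := S.V_sub i ((hE i i.2).2.1 hp)
    refine ⟨h.1, h.2.trans ?_⟩
    have h1 := S.one_le_L hB
    have h2 := S.w_pos
    nlinarith
  E_slope := fun i p hp => by
    refine (S.V_slope i p ((hE i i.2).2.1 hp)).trans ?_
    have h2 := S.w_pos
    have h3 := S.one_le_A
    rw [one_mul]
    apply div_le_div_of_nonneg_right _ (by positivity)
    unfold L
    nlinarith
  E_dens := fun i => by
    have h1 := S.vr_Reg i (mul_pos (S.L_pos hB) S.w_pos).le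
    have h2 := S.vr_R i
    have h3 := S.V_dens i
    have h4 := (hE i i.2).2.2
    unfold R I line at h2
    unfold I line at h1
    rw [h1]
    rw [h2] at h3
    have h5 := S.L_pos hB
    have : S.δ / (2 * S.L B) * (S.l i * (2 * (S.L B * S.w))) = S.δ * (S.l i * (2 * S.w)) / 2 := by
      field_simp
    rw [this]
    linarith
  E_ovl := fun T p => by
    classical
    by_cases h : ∃ i ∈ T, p ∈ E i
    · obtain ⟨i, hi, hp⟩ := h
      rw [Finset.sum_eq_single_of_mem i hi]
      · rw [Set.indicator_of_mem hp]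
      · intro j _ hji
        apply Set.indicator_of_notMem
        intro hpj
        exact Set.disjoint_left.1 (hdis j j.2 i i.2 (fun h => hji (Subtype.ext h))) hpj hp
    · push Not at h
      rw [Finset.sum_eq_zero]
      · exact zero_le_one
      · intro i hi
        exact Set.indicator_of_notMem (h i hi) _

theorem mem_dil {B : ℝ} (hB : 0 ≤ B) {j t : ι} (h : S.Above j t) {z : ℝ × ℝ}
    (h1 : z.1 ∈ S.I t) (h2 : |z.2 - S.line t z.1| ≤ B * S.w) :
    z ∈ Reg (S.I j) (S.line j) (S.L B * S.w) := by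
  have hw := S.w_pos
  have hA := S.one_le_A
  rcases h with h | ⟨hk, p, hpj, hpt⟩
  · subst h
    refine ⟨h1, h2.trans ?_⟩
    unfold L
    nlinarith
  · have hj := S.V_sub j hpj
    have ht := S.V_sub t hpt
    have hsj := S.V_slope j p hpj
    have hst := S.V_slope t p hpt
    have hsub : S.I t ⊆ S.I j := D_subset_of_mem hk ht.1 hj.1
    refine ⟨hsub h1, ?_⟩
    have hlt := S.l_pos t
    have hlj := S.l_pos j
    have hll : S.l t ≤ S.l j := by
      unfold l
      exact pow_le_pow_of_le_one (by norm_num) (by norm_num) hk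
    have hd1 : |S.s j - S.s t| ≤ 2 * S.A * S.w / S.l t := by
      have e1 : |S.s j - S.s t| ≤ |S.u p.1 p.2 - S.s j| + |S.u p.1 p.2 - S.s t| := by
        have := abs_sub_le (S.s j) (S.u p.1 p.2) (S.s t)
        rw [abs_sub_comm (S.s j) (S.u p.1 p.2)] at this
        exact this
      have e2 : S.A * S.w / S.l j ≤ S.A * S.w / S.l t :=
        div_le_div_of_nonneg_left (by positivity) hlt hll
      have e3 : 2 * S.A * S.w / S.l t = S.A * S.w / S.l t + S.A * S.w / S.l t := by ring
      have e4 : |S.u p.1 p.2 - S.s j| ≤ S.A * S.w / S.l j := hsj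
      have e5 : |S.u p.1 p.2 - S.s t| ≤ S.A * S.w / S.l t := hst
      linarith
    have hx : |z.1 - p.1| ≤ S.l t := abs_sub_le_of_mem_D h1 ht.1
    have hd2 : |(S.s j - S.s t) * (z.1 - p.1)| ≤ 2 * S.A * S.w := by
      rw [abs_mul]
      calc |S.s j - S.s t| * |z.1 - p.1| ≤ (2 * S.A * S.w / S.l t) * S.l t :=
            mul_le_mul hd1 hx (abs_nonneg _) (by positivity)
        _ = 2 * S.A * S.w := by field_simp
    have e1 : |p.2 - (S.b j + S.s j * p.1)| ≤ S.w := hj.2
    have e2 : |p.2 - (S.b t + S.s t * p.1)| ≤ S.w := ht.2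
    have e3 : z.2 - S.line j z.1 = (z.2 - S.line t z.1) + (p.2 - (S.b j + S.s j * p.1)) -
        (p.2 - (S.b t + S.s t * p.1)) - (S.s j - S.s t) * (z.1 - p.1) := by
      unfold line; ring
    rw [e3]
    unfold L
    rw [abs_le] at *
    constructor <;> nlinarith [h2.1, h2.2, e1.1, e1.2, e2.1, e2.2, hd2.1, hd2.2]

/-- the admitted tubes of a finite family, with their counting function -/
theorem exists_count {B : ℝ} (hB : 0 ≤ B) (T : Finset ι) :
    ∃ F : ℝ × ℝ → ℝ, Measurable F ∧ (∀ z, 0 ≤ F z) ∧ Integrable (fun z => F z ^ 2) ∧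
      ∫ z, F z ^ 2 ≤ 65568 * (S.L B) ^ 3 / S.δ ^ 2 * ∑ i ∈ T, volume.real (S.R i) ∧
      ∀ (z : ℝ × ℝ) {κ : Type} [Fintype κ] (g : κ → Finset ι),
        (∀ a, ∀ t ∈ g a, z.1 ∈ S.I t ∧ |z.2 - S.line t z.1| ≤ B * S.w) →
        (∀ a a', a ≠ a' → ∀ t ∈ g a, ∀ t' ∈ g a', ∀ j, S.Above j t → ¬ S.Above j t') →
        ∀ (K : Finset κ), (∀ a ∈ K, ∃ t ∈ g a, t ∈ T) → (K.card : ℝ) ≤ F z := by
  classical
  obtain ⟨P, E, hPT, hE, hdis, hcov⟩ :=
    greedy S.k S.V S.V_meas S.V_fin S.V_pos T.card T rfl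
  set Z := S.toSys hB P E hE hdis with hZ
  have hZR : ∀ i : {i // i ∈ P}, Z.R i = Reg (S.I i) (S.line i) (S.L B * S.w) := fun i => rfl
  have hL := S.L_pos hB
  refine ⟨Z.N Finset.univ, ?_, ?_, Z.int_N_sq _, ?_, ?_⟩
  · unfold Sys.N
    exact Finset.measurable_sum _ (fun i _ => measurable_const.indicator (Z.R_meas i))
  · intro z
    unfold Sys.N
    exact Finset.sum_nonneg (fun i _ => Set.indicator_nonneg (fun _ _ => zero_le_one) _)
  · refine (Z.kakeya' Finset.univ).trans ?_
    have h1 : ∑ i : {i // i ∈ P}, volume.real (Z.R i) = S.L B * ∑ i ∈ P, volume.real (S.R i) := by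
      rw [← Finset.sum_coe_sort P (fun i => volume.real (S.R i)), Finset.mul_sum]
      apply Finset.sum_congr rfl
      intro i _
      rw [hZR, S.vr_Reg i (mul_pos hL S.w_pos).le, S.vr_R]
      ring
    rw [h1]
    have h2 : ∑ i ∈ P, volume.real (S.R i) ≤ ∑ i ∈ T, volume.real (S.R i) :=
      Finset.sum_le_sum_of_subset_of_nonneg hPT (fun _ _ _ => measureReal_nonneg)
    have h3 : Z.A = 1 := rfl
    have h4 : Z.M = 1 := rfl
    have h5 : Z.δ = S.δ / (2 * S.L B) := rfl
    rw [h3, h4, h5]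
    have hδ := S.δ_pos
    have h6 : 16392 * (1 * 1 / (S.δ / (2 * S.L B)) ^ 2) * (S.L B * ∑ i ∈ P, volume.real (S.R i)) =
        65568 * (S.L B) ^ 3 / S.δ ^ 2 * ∑ i ∈ P, volume.real (S.R i) := by
      field_simp
      ring
    rw [h6]
    exact mul_le_mul_of_nonneg_left h2 (by positivity)
  · intro z κ _ g hg hsep K hK
    -- choose an admitted tube for every hit group
    have hch : ∀ a ∈ K, ∃ j : {i // i ∈ P}, z ∈ Z.R j ∧ ∃ t ∈ g a, S.Above j t := by
      intro a ha
      obtain ⟨t, htg, htT⟩ := hK a ha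
      obtain ⟨h1, h2⟩ := hg a t htg
      by_cases htP : t ∈ P
      · refine ⟨⟨t, htP⟩, ?_, t, htg, Or.inl rfl⟩
        rw [hZR]
        exact S.mem_dil hB (Or.inl rfl) h1 h2
      · obtain ⟨j, hj, hk, hV⟩ := hcov t htT htP
        refine ⟨⟨j, hj⟩, ?_, t, htg, Or.inr ⟨hk, hV⟩⟩
        rw [hZR]
        exact S.mem_dil hB (Or.inr ⟨hk, hV⟩) h1 h2
    have hch' : ∀ a : {a // a ∈ K}, ∃ j : {i // i ∈ P}, z ∈ Z.R j ∧
        ∃ t ∈ g a.1, S.Above j t := fun a => hch a.1 a.2
    choose f hf1 hf2 using hch'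
    have hinj : Function.Injective f := by
      intro a a' haa
      by_contra hne
      obtain ⟨t, ht, h1⟩ := hf2 a
      obtain ⟨t', ht', h2⟩ := hf2 a'
      rw [← haa] at h2
      exact hsep a.1 a'.1 (fun h => hne (Subtype.ext h)) t ht t' ht' _ h1 h2
    have h1 : (Finset.univ.image f).card = K.card := by
      rw [Finset.card_image_of_injective _ hinj]; simp
    rw [← h1]
    unfold Sys.N
    calc ((Finset.univ.image f).card : ℝ) =
        ∑ i ∈ Finset.univ.image f, (Z.R i).indicator (fun _ => (1 : ℝ)) z := by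
          rw [Finset.card_eq_sum_ones]
          push_cast
          apply Finset.sum_congr rfl
          intro i hi
          obtain ⟨a, ha, rfl⟩ := Finset.mem_image.1 hi
          rw [Set.indicator_of_mem (hf1 a)]
      _ ≤ ∑ i, (Z.R i).indicator (fun _ => (1 : ℝ)) z :=
          Finset.sum_le_sum_of_subset_of_nonneg (Finset.subset_univ _)
            (fun _ _ _ => Set.indicator_nonneg (fun _ _ => zero_le_one) _)

end SysV

/-! ### random sparsification -/

open Classical in
/-- number of colourings which avoid colour `0` on `g` -/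
theorem card_avoid {ι : Type*} [Fintype ι] {q : ℕ} (g : Finset ι) :
    (Finset.univ.filter (fun r : ι → Fin (q + 1) => ∀ t ∈ g, r t ≠ 0)).card * (q + 1) ^ g.card =
      q ^ g.card * (q + 1) ^ Fintype.card ι := by
  have h1 : (Finset.univ.filter (fun r : ι → Fin (q + 1) => ∀ t ∈ g, r t ≠ 0)) =
      Fintype.piFinset (fun t => if t ∈ g then Finset.univ.erase (0 : Fin (q + 1))
        else Finset.univ) := by
    ext r
    simp only [Finset.mem_filter, Finset.mem_univ, true_and, Fintype.mem_piFinset]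
    constructor
    · intro h t
      by_cases ht : t ∈ g
      · rw [if_pos ht]; simp [h t ht]
      · rw [if_neg ht]; simp
    · intro h t ht
      have := h t
      rw [if_pos ht] at this
      exact (Finset.mem_erase.1 this).1
  rw [h1, Fintype.card_piFinset]
  have h2 : ∀ t : ι, (if t ∈ g then Finset.univ.erase (0 : Fin (q + 1))
        else Finset.univ).card = if t ∈ g then q else q + 1 := by
    intro t
    by_cases ht : t ∈ g
    · rw [if_pos ht, if_pos ht, Finset.card_erase_of_mem (Finset.mem_univ _)]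
      simp
    · rw [if_neg ht, if_neg ht]; simp
  simp_rw [h2]
  rw [Finset.prod_ite]
  simp only [Finset.prod_const]
  have h3 : (Finset.univ.filter (fun t => t ∈ g)).card = g.card := by
    congr 1; ext t; simp
  have h4 : (Finset.univ.filter (fun t => t ∉ g)).card + g.card = Fintype.card ι := by
    rw [← h3, add_comm]
    exact Finset.card_filter_add_card_filter_not (s := (Finset.univ : Finset ι)) (fun t => t ∈ g)
  rw [h3, ← h4, mul_assoc, ← pow_add]

open Classical in
/-- a group with at least `q + 1` elements is hit by at least half of the colourings -/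
theorem hit_half {ι : Type*} [Fintype ι] {q : ℕ} {g : Finset ι} (hg : q + 1 ≤ g.card) :
    ((q + 1 : ℕ) : ℝ) ^ Fintype.card ι ≤
      2 * ((Finset.univ.filter (fun r : ι → Fin (q + 1) => ∃ t ∈ g, r t = 0)).card : ℝ) := by
  have h1 := card_avoid (q := q) g
  have h2 : (Finset.univ.filter (fun r : ι → Fin (q + 1) => ∃ t ∈ g, r t = 0)).card +
      (Finset.univ.filter (fun r : ι → Fin (q + 1) => ∀ t ∈ g, r t ≠ 0)).card =
      (q + 1) ^ Fintype.card ι := by
    have h3 := Finset.card_filter_add_card_filter_not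
      (s := (Finset.univ : Finset (ι → Fin (q + 1)))) (fun r => ∃ t ∈ g, r t = 0)
    rw [Finset.card_univ, Fintype.card_fun, Fintype.card_fin] at h3
    rw [← h3]
    congr 2
    ext r
    simp
  set a := (Finset.univ.filter (fun r : ι → Fin (q + 1) => ∀ t ∈ g, r t ≠ 0)).card
  set b := (Finset.univ.filter (fun r : ι → Fin (q + 1) => ∃ t ∈ g, r t = 0)).card
  have h1' : (a : ℝ) * ((q : ℝ) + 1) ^ g.card = (q : ℝ) ^ g.card *
      ((q : ℝ) + 1) ^ Fintype.card ι := by exact_mod_cast h1
  have h2' : (b : ℝ) + a = ((q : ℝ) + 1) ^ Fintype.card ι := by exact_mod_cast h2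
  have hq : (0 : ℝ) < (q : ℝ) + 1 := by positivity
  -- `2 q ^ c ≤ (q + 1) ^ c` for `c ≥ q + 1`
  have h3 : 2 * (q : ℝ) ^ g.card ≤ ((q : ℝ) + 1) ^ g.card := by
    rcases Nat.eq_zero_or_pos q with h0 | h0
    · subst h0
      have : g.card ≠ 0 := by omega
      simp [this]
    · have hq0 : (0 : ℝ) < q := by exact_mod_cast h0
      have hb : (1 : ℝ) + g.card * (1 / q) ≤ (1 + 1 / (q : ℝ)) ^ g.card :=
        one_add_mul_le_pow (by
          have : (0 : ℝ) ≤ 1 / q := by positivity
          linarith) _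
      have hc : (q : ℝ) + 1 ≤ g.card := by exact_mod_cast hg
      have h5 : (1 : ℝ) ≤ g.card * (1 / q) := by
        rw [mul_one_div, le_div_iff₀ hq0]
        linarith
      have h6 : ((q : ℝ) + 1) ^ g.card = (1 + 1 / (q : ℝ)) ^ g.card * (q : ℝ) ^ g.card := by
        rw [← mul_pow]
        congr 1
        field_simp
      rw [h6]
      apply mul_le_mul_of_nonneg_right _ (by positivity)
      linarith
  have h4 : 2 * (a : ℝ) ≤ ((q : ℝ) + 1) ^ Fintype.card ι := by
    have hpos : (0 : ℝ) < ((q : ℝ) + 1) ^ g.card := by positivity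
    apply le_of_mul_le_mul_right _ hpos
    calc 2 * (a : ℝ) * ((q : ℝ) + 1) ^ g.card = 2 * ((q : ℝ) ^ g.card *
          ((q : ℝ) + 1) ^ Fintype.card ι) := by rw [mul_assoc, h1']
      _ = 2 * (q : ℝ) ^ g.card * ((q : ℝ) + 1) ^ Fintype.card ι := by ring
      _ ≤ ((q : ℝ) + 1) ^ g.card * ((q : ℝ) + 1) ^ Fintype.card ι :=
          mul_le_mul_of_nonneg_right h3 (by positivity)
      _ = ((q : ℝ) + 1) ^ Fintype.card ι * ((q : ℝ) + 1) ^ g.card := by ring
  push_cast
  linarith

open Classical in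
/-- every element is kept by a fraction `1 / (q + 1)` of the colourings -/
theorem card_keep {ι : Type*} [Fintype ι] {q : ℕ} (t : ι) :
    ((Finset.univ.filter (fun r : ι → Fin (q + 1) => r t = 0)).card : ℝ) * (q + 1) =
      ((q : ℝ) + 1) ^ Fintype.card ι := by
  have h1 := card_avoid (q := q) {t}
  have h2 : (Finset.univ.filter (fun r : ι → Fin (q + 1) => r t = 0)).card +
      (Finset.univ.filter (fun r : ι → Fin (q + 1) => ∀ t' ∈ ({t} : Finset ι), r t' ≠ 0)).card =
      (q + 1) ^ Fintype.card ι := by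
    have h3 := Finset.card_filter_add_card_filter_not
      (s := (Finset.univ : Finset (ι → Fin (q + 1)))) (fun r => r t = 0)
    rw [Finset.card_univ, Fintype.card_fun, Fintype.card_fin] at h3
    rw [← h3]
    congr 2
    ext r
    simp
  rw [Finset.card_singleton, pow_one, pow_one] at h1
  set a := (Finset.univ.filter (fun r : ι → Fin (q + 1) => ∀ t' ∈ ({t} : Finset ι), r t' ≠ 0)).card
  set b := (Finset.univ.filter (fun r : ι → Fin (q + 1) => r t = 0)).card
  have h1' : (a : ℝ) * ((q : ℝ) + 1) = (q : ℝ) * ((q : ℝ) + 1) ^ Fintype.card ι := by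
    exact_mod_cast h1
  have h2' : (b : ℝ) + a = ((q : ℝ) + 1) ^ Fintype.card ι := by exact_mod_cast h2
  have : (b : ℝ) = ((q : ℝ) + 1) ^ Fintype.card ι - a := by linarith
  rw [this]
  linarith

open Classical in
/-- **Sparse Kakeya.** `n z` separated groups of at least `q + 1` dense tubes through `z`. -/
theorem SysV.sparse {ι : Type*} [Fintype ι] (S : SysV ι) {B : ℝ} (hB : 0 ≤ B) (q : ℕ)
    (n : ℝ × ℝ → ℕ)
    (h : ∀ z, ∃ g : Fin (n z) → Finset ι, (∀ a, q + 1 ≤ (g a).card) ∧
      (∀ a, ∀ t ∈ g a, z.1 ∈ S.I t ∧ |z.2 - S.line t z.1| ≤ B * S.w) ∧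
      (∀ a a', a ≠ a' → ∀ t ∈ g a, ∀ t' ∈ g a', ∀ j, S.Above j t → ¬ S.Above j t')) :
    ∫⁻ z, (n z : ℝ≥0∞) ^ 2 ≤ ENNReal.ofReal (262272 * (S.L B) ^ 3 / S.δ ^ 2 *
      ((∑ i, volume.real (S.R i)) / (q + 1))) := by
  choose F hFm hF0 hFi hFI hFc using fun T : Finset ι => S.exists_count hB T
  set W : (ι → Fin (q + 1)) → Finset ι := fun r => Finset.univ.filter (fun t => r t = 0) with hW
  set Q : ℝ := ((q : ℝ) + 1) ^ Fintype.card ι with hQ
  have hQpos : 0 < Q := by positivity
  have hcardr : (Fintype.card (ι → Fin (q + 1)) : ℝ) = Q := by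
    rw [Fintype.card_fun, Fintype.card_fin]; push_cast; rfl
  have hL := S.L_pos hB
  have hδ := S.δ_pos
  -- pointwise bound
  have hpt : ∀ z, Q * (n z : ℝ) ≤ 2 * ∑ r, F (W r) z := by
    intro z
    obtain ⟨g, hg1, hg2, hg3⟩ := h z
    have e1 : ∀ r, ((Finset.univ.filter (fun a : Fin (n z) => ∃ t ∈ g a, r t = 0)).card : ℝ) ≤
        F (W r) z := by
      intro r
      apply hFc (W r) z g hg2 hg3
      intro a ha
      obtain ⟨t, ht, hr⟩ := (Finset.mem_filter.1 ha).2
      exact ⟨t, ht, by rw [hW]; exact Finset.mem_filter.2 ⟨Finset.mem_univ _, hr⟩⟩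
    have e2 : ∑ r : ι → Fin (q + 1),
        ((Finset.univ.filter (fun a : Fin (n z) => ∃ t ∈ g a, r t = 0)).card : ℝ) =
        ∑ a : Fin (n z), ((Finset.univ.filter
          (fun r : ι → Fin (q + 1) => ∃ t ∈ g a, r t = 0)).card : ℝ) := by
      simp_rw [Finset.card_filter]
      push_cast
      exact Finset.sum_comm
    have e3 : ∀ a : Fin (n z), Q ≤ 2 * ((Finset.univ.filter
          (fun r : ι → Fin (q + 1) => ∃ t ∈ g a, r t = 0)).card : ℝ) := by
      intro a
      have := hit_half (hg1 a)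
      push_cast at this
      exact this
    calc Q * (n z : ℝ) = ∑ _a : Fin (n z), Q := by
          rw [Finset.sum_const, Finset.card_univ, Fintype.card_fin, nsmul_eq_mul]; ring
      _ ≤ ∑ a : Fin (n z), 2 * ((Finset.univ.filter
          (fun r : ι → Fin (q + 1) => ∃ t ∈ g a, r t = 0)).card : ℝ) :=
          Finset.sum_le_sum (fun a _ => e3 a)
      _ = 2 * ∑ r : ι → Fin (q + 1),
        ((Finset.univ.filter (fun a : Fin (n z) => ∃ t ∈ g a, r t = 0)).card : ℝ) := by
          rw [e2, Finset.mul_sum]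
      _ ≤ 2 * ∑ r, F (W r) z :=
          mul_le_mul_of_nonneg_left (Finset.sum_le_sum (fun r _ => e1 r)) (by norm_num)
  have hsq : ∀ z, ((n z : ℝ)) ^ 2 ≤ (4 / Q) * ∑ r, F (W r) z ^ 2 := by
    intro z
    have e1 : (Q * (n z : ℝ)) ^ 2 ≤ (2 * ∑ r, F (W r) z) ^ 2 :=
      pow_le_pow_left₀ (by positivity) (hpt z) 2
    have e2 : (∑ r, F (W r) z) ^ 2 ≤ Q * ∑ r, F (W r) z ^ 2 := by
      have := sq_sum_le_card_mul_sum_sq (s := (Finset.univ : Finset (ι → Fin (q + 1))))
        (f := fun r => F (W r) z)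
      rw [Finset.card_univ, hcardr] at this
      exact this
    have e3 : Q ^ 2 * (n z : ℝ) ^ 2 ≤ Q ^ 2 * ((4 / Q) * ∑ r, F (W r) z ^ 2) := by
      calc Q ^ 2 * (n z : ℝ) ^ 2 = (Q * (n z : ℝ)) ^ 2 := by ring
        _ ≤ (2 * ∑ r, F (W r) z) ^ 2 := e1
        _ = 4 * (∑ r, F (W r) z) ^ 2 := by ring
        _ ≤ 4 * (Q * ∑ r, F (W r) z ^ 2) := mul_le_mul_of_nonneg_left e2 (by norm_num)
        _ = Q ^ 2 * ((4 / Q) * ∑ r, F (W r) z ^ 2) := by field_simp
    exact le_of_mul_le_mul_left e3 (by positivity)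
  have hint : Integrable (fun z => (4 / Q) * ∑ r, F (W r) z ^ 2) :=
    (integrable_finsetSum _ (fun r _ => hFi (W r))).const_mul _
  have hI : ∫ z, (4 / Q) * ∑ r, F (W r) z ^ 2 ≤
      262272 * (S.L B) ^ 3 / S.δ ^ 2 * ((∑ i, volume.real (S.R i)) / (q + 1)) := by
    rw [integral_const_mul, integral_finsetSum _ (fun r _ => hFi (W r))]
    have e1 : ∑ r, ∫ z, F (W r) z ^ 2 ≤ ∑ r, 65568 * (S.L B) ^ 3 / S.δ ^ 2 *
        ∑ i ∈ W r, volume.real (S.R i) := Finset.sum_le_sum (fun r _ => hFI (W r))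
    have e2 : ∑ r, ∑ i ∈ W r, volume.real (S.R i) =
        (Q / (q + 1)) * ∑ i, volume.real (S.R i) := by
      calc ∑ r, ∑ i ∈ W r, volume.real (S.R i) =
          ∑ r : ι → Fin (q + 1), ∑ i, if r i = 0 then volume.real (S.R i) else 0 := by
            apply Finset.sum_congr rfl
            intro r _
            rw [hW, Finset.sum_filter]
        _ = ∑ i, ∑ r : ι → Fin (q + 1), if r i = 0 then volume.real (S.R i) else 0 :=
            Finset.sum_comm
        _ = ∑ i, (Q / (q + 1)) * volume.real (S.R i) := by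
            apply Finset.sum_congr rfl
            intro i _
            rw [← Finset.sum_filter, Finset.sum_const, nsmul_eq_mul]
            congr 1
            rw [eq_div_iff (by positivity)]
            exact card_keep i
        _ = _ := by rw [Finset.mul_sum]
    calc 4 / Q * ∑ r, ∫ z, F (W r) z ^ 2 ≤
        4 / Q * ∑ r, 65568 * (S.L B) ^ 3 / S.δ ^ 2 * ∑ i ∈ W r, volume.real (S.R i) :=
          mul_le_mul_of_nonneg_left e1 (by positivity)
      _ = 262272 * (S.L B) ^ 3 / S.δ ^ 2 * ((∑ i, volume.real (S.R i)) / (q + 1)) := by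
          rw [← Finset.mul_sum, e2]
          field_simp
          ring
  calc ∫⁻ z, (n z : ℝ≥0∞) ^ 2 ≤ ∫⁻ z, ENNReal.ofReal ((4 / Q) * ∑ r, F (W r) z ^ 2) := by
        apply lintegral_mono
        intro z
        show (n z : ℝ≥0∞) ^ 2 ≤ ENNReal.ofReal ((4 / Q) * ∑ r, F (W r) z ^ 2)
        have : (n z : ℝ≥0∞) ^ 2 = ENNReal.ofReal ((n z : ℝ) ^ 2) := by
          rw [ENNReal.ofReal_pow (by positivity), ENNReal.ofReal_natCast]
        rw [this]
        exact ENNReal.ofReal_le_ofReal (hsq z)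
    _ = ENNReal.ofReal (∫ z, (4 / Q) * ∑ r, F (W r) z ^ 2) := by
        rw [ofReal_integral_eq_lintegral_ofReal hint]
        exact Filter.Eventually.of_forall (fun z => by positivity)
    _ ≤ _ := ENNReal.ofReal_le_ofReal hI

/-- averaging over the candidates: at least `c` of the sets `X i` contain `z` for every `z ∈ Y` -/
theorem averaging {α ι : Type*} [MeasurableSpace α] (μ : Measure α) (T : Finset ι)
    (X : ι → Set α) (hX : ∀ i ∈ T, MeasurableSet (X i)) (Y : Set α) (c : ℕ) 
    (h : ∀ z ∈ Y, ∃ K : Finset ι, K ⊆ T ∧ c ≤ K.card ∧ ∀ i ∈ K, z ∈ X i) :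
    c * μ Y ≤ ∑ i ∈ T, μ (X i) := by
  classical
  set f : α → ℝ≥0∞ := fun z => ∑ i ∈ T, (X i).indicator (fun _ => (1 : ℝ≥0∞)) z with hf
  have hfm : Measurable f := Finset.measurable_sum _
    (fun i hi => measurable_const.indicator (hX i hi))
  have h1 : ∫⁻ z, f z ∂μ = ∑ i ∈ T, μ (X i) := by
    rw [hf, lintegral_finsetSum' _ (fun i hi => (measurable_const.indicator (hX i hi)).aemeasurable)]
    apply Finset.sum_congr rfl
    intro i hi
    rw [lintegral_indicator (hX i hi)]; simp
  have h2 : Y ⊆ {z | (c : ℝ≥0∞) ≤ f z} := by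
    intro z hz
    obtain ⟨K, hKT, hc, hK⟩ := h z hz
    rw [Set.mem_setOf_eq, hf]
    calc (c : ℝ≥0∞) ≤ (K.card : ℝ≥0∞) := by exact_mod_cast hc
      _ = ∑ i ∈ K, (X i).indicator (fun _ => (1 : ℝ≥0∞)) z := by
          rw [Finset.card_eq_sum_ones]
          push_cast
          apply Finset.sum_congr rfl
          intro i hi
          rw [Set.indicator_of_mem (hK i hi)]
      _ ≤ _ := Finset.sum_le_sum_of_subset hKT
  calc c * μ Y ≤ c * μ {z | (c : ℝ≥0∞) ≤ f z} := by gcongr
    _ ≤ ∫⁻ z, f z ∂μ := mul_meas_ge_le_lintegral hfm _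
    _ = _ := h1

end Vale.Agent.P112.H295
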