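import Vale.Agent.P112.H884.Glue

/-!
The recursion over the levels with level dependent potentials `φ n C z` and crude terms
`cost n P C z` which are peeled off pointwise at every class (branching or not). Generalises
`H884.Rec`.
-/

open MeasureTheory Finset
open scoped ENNReal

namespace Vale.Agent.P112.H295

open Vale.Agent.P112.H884

set_option linter.unusedSectionVars false

variable {ι : Type*} [DecidableEq ι] [Fintype ι]

/-- Data for the recursion with crude terms. `S z` is the set of active labels, `φ n C z` the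
potential of the class `C` at the level `n`, `al` its main part, `cost` its crude part, `D` the
error, `B` the bad set, `X n P C` the averaging time and `v n P C` the slope. -/
structure Rec3 (p : Sc) (s : ι → ℝ) (𝒢 : Finset ι → Prop) (S : ℝ × ℝ → Finset ι)
    (φ : ℕ → Finset ι → ℝ × ℝ → ℝ≥0∞) (al cost : ℕ → Finset ι → Finset ι → ℝ × ℝ → ℝ≥0∞)
    (D : ℝ × ℝ → ℝ≥0∞) (B : Set (ℝ × ℝ)) (X v : ℕ → Finset ι → Finset ι → ℝ) : Prop where
  good : Good p s 𝒢
  mS : ∀ T, MeasurableSet {z | S z = T}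
  mφ : ∀ n C, Measurable (φ n C)
  mal : ∀ n P C, Measurable (al n P C)
  mcost : ∀ n P C, Measurable (cost n P C)
  mD : Measurable D
  mB : MeasurableSet B
  Xpos : ∀ n P C, 0 < X n P C
  split : ∀ n P C z, z ∉ B → 𝒢 P → IsComp s (p.Δ n) (S z) P → C ∈ cls p s n P →
    φ n C z ≤ al n P C z + cost n P C z
  one : ∀ n P C z, z ∉ B → 𝒢 P → IsComp s (p.Δ n) (S z) P → C ∈ cls p s n P →
    pcs p s n P C = {C} → al n P C z ≤ φ (n + 1) C z
  node : ∀ n P C z, 𝒢 P → IsComp s (p.Δ n) (S z) P → C ∈ cls p s n P →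
    2 ≤ (pcs p s n P C).card →
    ∫⁻ t in Set.Icc 0 (X n P C) ∩ {t | mv z t (v n P C) ∉ B ∧
        IsComp s (p.Δ n) (S (mv z t (v n P C))) P}, al n P C (mv z t (v n P C)) ≤
      ENNReal.ofReal (X n P C) * (∑ e ∈ pcs p s n P C, φ (n + 1) e z + D z)
  stab : ∀ n P C z t, 𝒢 P → C ∈ cls p s n P → 2 ≤ (pcs p s n P C).card →
    0 ≤ t → t ≤ X n P C → IsComp s (p.Δ n) (S (mv z t (v n P C))) P →
    mv z t (v n P C) ∉ B → IsComp s (p.Δ n) (S z) P
  triv : ∀ n C z, z ∈ B → 𝒢 C → C ⊆ S z → φ n C z ≤ D z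

section
variable {p : Sc} {s : ι → ℝ} {𝒢 : Finset ι → Prop} {S : ℝ × ℝ → Finset ι}
  {φ : ℕ → Finset ι → ℝ × ℝ → ℝ≥0∞} {al cost : ℕ → Finset ι → Finset ι → ℝ × ℝ → ℝ≥0∞}
  {D : ℝ × ℝ → ℝ≥0∞} {B : Set (ℝ × ℝ)} {X v : ℕ → Finset ι → Finset ι → ℝ}

lemma Rec3.meas_Y (h : Rec3 p s 𝒢 S φ al cost D B X v) (n : ℕ) (P : Finset ι) :
    MeasurableSet (Y p s S n P) := meas_of_S h.mS (fun T => IsComp s (p.Δ n) T P)

/-- One class, at least two pieces: the main part off the bad set. -/
lemma Rec3.node_int (h : Rec3 p s 𝒢 S φ al cost D B X v) {n : ℕ} {P C : Finset ι} (hP : 𝒢 P)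
    (hC : C ∈ cls p s n P) (hq : 2 ≤ (pcs p s n P C).card) :
    ∫⁻ z in Y p s S n P \ B, al n P C z ≤
      ∫⁻ z in Y p s S n P, (∑ e ∈ pcs p s n P C, φ (n + 1) e z + D z) := by
  have hX := h.Xpos n P C
  have hYm := h.meas_Y n P
  set g : ℝ × ℝ → ℝ≥0∞ := (Y p s S n P \ B).indicator (al n P C) with hg
  have hgm : Measurable g := (h.mal n P C).indicator (hYm.diff h.mB)
  have h1 : ENNReal.ofReal (X n P C) * ∫⁻ z, g z ≤
      ENNReal.ofReal (X n P C) *
        ∫⁻ z in Y p s S n P, (∑ e ∈ pcs p s n P C, φ (n + 1) e z + D z) := by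
    have hm1 : Measurable fun z => ∑ e ∈ pcs p s n P C, φ (n + 1) e z + D z :=
      (Finset.measurable_sum _ fun e _ => h.mφ _ e).add h.mD
    rw [avg_swap hgm _ (v n P C), ← lintegral_const_mul _ hm1, ← lintegral_indicator hYm]
    refine lintegral_mono fun z => ?_
    by_cases hz : z ∈ Y p s S n P
    · rw [Set.indicator_of_mem hz]
      refine le_trans (le_of_eq ?_) (h.node n P C z hP hz hC hq)
      have hmt : Measurable fun t : ℝ => mv z t (v n P C) := by
        unfold mv
        fun_prop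
      have hset : MeasurableSet {t : ℝ | mv z t (v n P C) ∉ B ∧
          IsComp s (p.Δ n) (S (mv z t (v n P C))) P} :=
        (hmt h.mB.compl).inter (hmt hYm)
      rw [Set.inter_comm, ← Measure.restrict_restrict hset, ← lintegral_indicator hset]
      refine lintegral_congr fun t => ?_
      by_cases ht : mv z t (v n P C) ∈ Y p s S n P \ B
      · rw [hg, Set.indicator_of_mem ht, Set.indicator_of_mem]
        exact ⟨ht.2, ht.1⟩
      · rw [hg, Set.indicator_of_notMem ht, Set.indicator_of_notMem]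
        rintro ⟨h2, h3⟩
        exact ht ⟨h3, h2⟩
    · rw [Set.indicator_of_notMem hz]
      refine le_of_eq ?_
      rw [setLIntegral_congr_fun (g := fun _ => (0 : ℝ≥0∞)) measurableSet_Icc, lintegral_zero]
      intro t ht
      simp only [hg]
      refine Set.indicator_of_notMem ?_ _
      rintro ⟨h2, h3⟩
      exact hz (h.stab n P C z t hP hC hq ht.1 ht.2 h2 h3)
  rw [← lintegral_indicator (hYm.diff h.mB)]
  have h0 : ENNReal.ofReal (X n P C) ≠ 0 := by
    simpa using hX
  exact (ENNReal.mul_le_mul_iff_right h0 ENNReal.ofReal_ne_top).1 h1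

open Classical in
/-- The potential, replaced by the error on the bad set. -/
noncomputable def hat (φ : ℕ → Finset ι → ℝ × ℝ → ℝ≥0∞) (D : ℝ × ℝ → ℝ≥0∞) (B : Set (ℝ × ℝ))
    (n : ℕ) (C : Finset ι) (z : ℝ × ℝ) : ℝ≥0∞ := if z ∈ B then D z else φ n C z

lemma Rec3.mhat (h : Rec3 p s 𝒢 S φ al cost D B X v) (n : ℕ) (C : Finset ι) :
    Measurable (hat φ D B n C) := by
  classical
  exact Measurable.ite h.mB h.mD (h.mφ n C)

lemma Rec3.le_hat (h : Rec3 p s 𝒢 S φ al cost D B X v) {n : ℕ} {C : Finset ι} {z : ℝ × ℝ}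
    (hC : 𝒢 C) (hCS : C ⊆ S z) : φ n C z ≤ hat φ D B n C z := by
  unfold hat
  split_ifs with hz
  · exact h.triv n C z hz hC hCS
  · exact le_rfl

/-- One class. -/
lemma Rec3.class_step (h : Rec3 p s 𝒢 S φ al cost D B X v) {n : ℕ} {P C : Finset ι}
    (hP : 𝒢 P) (hC : C ∈ cls p s n P) :
    ∫⁻ z in Y p s S n P, (hat φ D B n C z + 2 * D z) ≤
      (∫⁻ z in Y p s S n P, ∑ e ∈ pcs p s n P C, (hat φ D B (n + 1) e z + 2 * D z)) +
        ∫⁻ z in Y p s S n P, Bᶜ.indicator (cost n P C) z := by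
  have hYm := h.meas_Y n P
  have hcm : Measurable (Bᶜ.indicator (cost n P C)) := (h.mcost n P C).indicator h.mB.compl
  by_cases hc : Conn s (p.Δ n) P
  · by_cases hq : 2 ≤ (pcs p s n P C).card
    · have h1 : ∫⁻ z in Y p s S n P, hat φ D B n C z ≤
          (∫⁻ z in Y p s S n P, (∑ e ∈ pcs p s n P C, hat φ D B (n + 1) e z + D z)) +
            (∫⁻ z in Y p s S n P, D z) +
            ∫⁻ z in Y p s S n P, Bᶜ.indicator (cost n P C) z := by
        have h2 : ∫⁻ z in Y p s S n P, hat φ D B n C z =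
            (∫⁻ z in Y p s S n P ∩ B, hat φ D B n C z) +
              ∫⁻ z in Y p s S n P \ B, hat φ D B n C z :=
          (lintegral_inter_add_sdiff _ _ h.mB).symm
        have h3 : ∫⁻ z in Y p s S n P ∩ B, hat φ D B n C z ≤ ∫⁻ z in Y p s S n P, D z := by
          calc ∫⁻ z in Y p s S n P ∩ B, hat φ D B n C z ≤ ∫⁻ z in Y p s S n P ∩ B, D z := by
                refine setLIntegral_mono' (hYm.inter h.mB) fun z hz => ?_
                unfold hat
                rw [if_pos hz.2]
            _ ≤ ∫⁻ z in Y p s S n P, D z := lintegral_mono_set Set.inter_subset_left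
        have h4 : ∫⁻ z in Y p s S n P \ B, hat φ D B n C z ≤
            (∫⁻ z in Y p s S n P, (∑ e ∈ pcs p s n P C, hat φ D B (n + 1) e z + D z)) +
              ∫⁻ z in Y p s S n P, Bᶜ.indicator (cost n P C) z := by
          calc ∫⁻ z in Y p s S n P \ B, hat φ D B n C z
              ≤ ∫⁻ z in Y p s S n P \ B, (al n P C z + Bᶜ.indicator (cost n P C) z) := by
                refine setLIntegral_mono' (hYm.diff h.mB) fun z hz => ?_
                unfold hat
                rw [if_neg hz.2, Set.indicator_of_mem (by exact hz.2)]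
                exact h.split n P C z hz.2 hP hz.1 hC
            _ = (∫⁻ z in Y p s S n P \ B, al n P C z) +
                ∫⁻ z in Y p s S n P \ B, Bᶜ.indicator (cost n P C) z :=
                lintegral_add_left (h.mal n P C) _
            _ ≤ _ := by
                refine add_le_add (le_trans (h.node_int hP hC hq) ?_)
                  (lintegral_mono_set Set.sdiff_subset)
                refine setLIntegral_mono' hYm fun z hz => ?_
                refine add_le_add (Finset.sum_le_sum fun e he => ?_) le_rfl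
                have hz1 : IsComp s (p.Δ n) (S z) P := hz
                have heC : e ⊆ C := by
                  unfold pcs at he
                  exact (mem_filter.1 he).2
                exact h.le_hat (h.good.her _ _ hP (heC.trans (cls_sub hC)))
                  ((heC.trans (cls_sub hC)).trans hz1.1)
        rw [h2]
        calc _ ≤ (∫⁻ z in Y p s S n P, D z) +
              ((∫⁻ z in Y p s S n P, (∑ e ∈ pcs p s n P C, hat φ D B (n + 1) e z + D z)) +
                ∫⁻ z in Y p s S n P, Bᶜ.indicator (cost n P C) z) := add_le_add h3 h4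
          _ = _ := by ring
      have hm1 : Measurable fun z => ∑ e ∈ pcs p s n P C, hat φ D B (n + 1) e z :=
        Finset.measurable_sum _ fun e _ => h.mhat _ e
      calc ∫⁻ z in Y p s S n P, (hat φ D B n C z + 2 * D z)
          = (∫⁻ z in Y p s S n P, hat φ D B n C z) + ∫⁻ z in Y p s S n P, 2 * D z :=
            lintegral_add_left (h.mhat n C) _
        _ ≤ ((∫⁻ z in Y p s S n P, (∑ e ∈ pcs p s n P C, hat φ D B (n + 1) e z + D z)) +
            (∫⁻ z in Y p s S n P, D z) +
            ∫⁻ z in Y p s S n P, Bᶜ.indicator (cost n P C) z) +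
              ∫⁻ z in Y p s S n P, 2 * D z :=
            add_le_add h1 le_rfl
        _ = (∫⁻ z in Y p s S n P, ((∑ e ∈ pcs p s n P C, hat φ D B (n + 1) e z + D z) + D z +
              2 * D z)) + ∫⁻ z in Y p s S n P, Bᶜ.indicator (cost n P C) z := by
            have hm2 : Measurable fun z => ∑ e ∈ pcs p s n P C, hat φ D B (n + 1) e z + D z :=
              hm1.add h.mD
            have hm3 : Measurable fun z =>
                ∑ e ∈ pcs p s n P C, hat φ D B (n + 1) e z + D z + D z :=
              hm2.add h.mD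
            rw [lintegral_add_left hm3, lintegral_add_left hm2]
            ring
        _ ≤ _ := by
            refine add_le_add (lintegral_mono fun z => ?_) le_rfl
            dsimp only
            rw [Finset.sum_add_distrib, Finset.sum_const, nsmul_eq_mul]
            have h3 : (2 : ℝ≥0∞) ≤ ((pcs p s n P C).card : ℝ≥0∞) := by exact_mod_cast hq
            have h4 : D z + D z + 2 * D z ≤ ((pcs p s n P C).card : ℝ≥0∞) * (2 * D z) := by
              calc D z + D z + 2 * D z = 2 * (2 * D z) := by ring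
                _ ≤ _ := by gcongr
            calc (∑ e ∈ pcs p s n P C, hat φ D B (n + 1) e z + D z) + D z + 2 * D z
                = ∑ e ∈ pcs p s n P C, hat φ D B (n + 1) e z + (D z + D z + 2 * D z) := by ring
              _ ≤ _ := by gcongr
    · have h1 : pcs p s n P C = {C} := h.good.pcs_one hP hc hC (by omega)
      rw [h1, ← lintegral_add_right _ hcm]
      refine setLIntegral_mono' hYm fun z hz => ?_
      simp only [Finset.sum_singleton]
      unfold hat
      by_cases hzB : z ∈ B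
      · rw [if_pos hzB, if_pos hzB]
        exact le_self_add
      · rw [if_neg hzB, if_neg hzB, Set.indicator_of_mem (by exact hzB)]
        calc φ n C z + 2 * D z ≤ (al n P C z + cost n P C z) + 2 * D z :=
              add_le_add (h.split n P C z hzB hP hz hC) le_rfl
          _ ≤ (φ (n + 1) C z + cost n P C z) + 2 * D z :=
              add_le_add (add_le_add (h.one n P C z hzB hP hz hC h1) le_rfl) le_rfl
          _ = _ := by ring
  · have h1 : Y p s S n P = ∅ := by
      ext z
      simp only [Y, Set.mem_ofPred_eq, Set.mem_empty_iff_false, iff_false]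
      intro h2
      exact hc h2.2.1
    rw [h1]
    simp

/-- The total crude term of the level `n` at `z`. -/
noncomputable def crude (p : Sc) (s : ι → ℝ) (𝒢 : Finset ι → Prop) (S : ℝ × ℝ → Finset ι)
    (cost : ℕ → Finset ι → Finset ι → ℝ × ℝ → ℝ≥0∞) (n : ℕ) (z : ℝ × ℝ) : ℝ≥0∞ :=
  ∑ P ∈ Lab p s 𝒢 n (S z), ∑ C ∈ cls p s n P, cost n P C z

/-- One level. -/
theorem Rec3.step (h : Rec3 p s 𝒢 S φ al cost D B X v) (n : ℕ) :
    ∫⁻ z, ∑ P ∈ Lab p s 𝒢 n (S z), ∑ C ∈ cls p s n P, (hat φ D B n C z + 2 * D z) ≤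
      (∫⁻ z, ∑ P ∈ Lab p s 𝒢 (n + 1) (S z), ∑ C ∈ cls p s (n + 1) P,
        (hat φ D B (n + 1) C z + 2 * D z)) + ∫⁻ z in Bᶜ, crude p s 𝒢 S cost n z := by
  classical
  have hm : ∀ k C, Measurable fun z => hat φ D B k C z + 2 * D z := fun k C =>
    (h.mhat k C).add (h.mD.const_mul 2)
  have hcm : ∀ P C, Measurable (Bᶜ.indicator (cost n P C)) := fun P C =>
    (h.mcost n P C).indicator h.mB.compl
  -- an integrated sum over labels
  have key : ∀ f : Finset ι → ℝ × ℝ → ℝ≥0∞, (∀ P, Measurable (f P)) →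
      ∫⁻ z, ∑ P ∈ Lab p s 𝒢 n (S z), f P z =
        ∑ P ∈ (univ : Finset (Finset ι)).filter 𝒢, ∫⁻ z in Y p s S n P, f P z := by
    intro f hf
    have : ∀ z, ∑ P ∈ Lab p s 𝒢 n (S z), f P z =
        ∑ P ∈ (univ : Finset (Finset ι)).filter 𝒢, (Y p s S n P).indicator (f P) z :=
      fun z => sum_Lab f n z
    simp_rw [this]
    rw [lintegral_finsetSum _ fun P _ => (hf P).indicator (h.meas_Y n P)]
    refine Finset.sum_congr rfl fun P _ => ?_
    rw [lintegral_indicator (h.meas_Y n P)]
  have h1 := key (fun P z => ∑ C ∈ cls p s n P, (hat φ D B n C z + 2 * D z))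
    (fun P => Finset.measurable_sum _ fun C _ => hm n C)
  have h2 := key (fun P z => ∑ C ∈ cls p s n P, ∑ e ∈ pcs p s n P C,
      (hat φ D B (n + 1) e z + 2 * D z))
    (fun P => Finset.measurable_sum _ fun C _ => Finset.measurable_sum _ fun e _ => hm _ e)
  have h3 := key (fun P z => ∑ C ∈ cls p s n P, Bᶜ.indicator (cost n P C) z)
    (fun P => Finset.measurable_sum _ fun C _ => hcm P C)
  have h4 : ∫⁻ z in Bᶜ, crude p s 𝒢 S cost n z =
      ∫⁻ z, ∑ P ∈ Lab p s 𝒢 n (S z), ∑ C ∈ cls p s n P, Bᶜ.indicator (cost n P C) z := by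
    rw [← lintegral_indicator h.mB.compl]
    refine lintegral_congr fun z => ?_
    by_cases hz : z ∈ B
    · rw [Set.indicator_of_notMem (by simpa using hz)]
      symm
      refine Finset.sum_eq_zero fun P _ => Finset.sum_eq_zero fun C _ => ?_
      exact Set.indicator_of_notMem (by simpa using hz) _
    · rw [Set.indicator_of_mem (by exact hz)]
      unfold crude
      refine Finset.sum_congr rfl fun P _ => Finset.sum_congr rfl fun C _ => ?_
      rw [Set.indicator_of_mem (by exact hz)]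
  rw [h1, h4, h3]
  calc _ ≤ ∑ P ∈ (univ : Finset (Finset ι)).filter 𝒢,
        ((∫⁻ z in Y p s S n P, ∑ C ∈ cls p s n P, ∑ e ∈ pcs p s n P C,
          (hat φ D B (n + 1) e z + 2 * D z)) +
        ∫⁻ z in Y p s S n P, ∑ C ∈ cls p s n P, Bᶜ.indicator (cost n P C) z) := by
        refine Finset.sum_le_sum fun P hP => ?_
        rw [lintegral_finsetSum _ fun C _ => hm n C,
          lintegral_finsetSum _ fun C _ => Finset.measurable_sum _ fun e _ => hm _ e,
          lintegral_finsetSum _ fun C _ => hcm P C, ← Finset.sum_add_distrib]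
        exact Finset.sum_le_sum fun C hC => h.class_step (mem_filter.1 hP).2 hC
    _ = _ := by rw [Finset.sum_add_distrib, ← h2]
    _ ≤ _ := by
        refine add_le_add (lintegral_mono fun z => ?_) le_rfl
        exact h.good.refine n (S z) (fun e => hat φ D B (n + 1) e z + 2 * D z)

theorem Rec3.steps (h : Rec3 p s 𝒢 S φ al cost D B X v) (n : ℕ) :
    ∫⁻ z, ∑ P ∈ Lab p s 𝒢 0 (S z), ∑ C ∈ cls p s 0 P, (hat φ D B 0 C z + 2 * D z) ≤
      (∫⁻ z, ∑ P ∈ Lab p s 𝒢 n (S z), ∑ C ∈ cls p s n P, (hat φ D B n C z + 2 * D z)) +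
        ∑ k ∈ Finset.range n, ∫⁻ z in Bᶜ, crude p s 𝒢 S cost k z := by
  induction n with
  | zero => simp
  | succ n ih =>
    rw [Finset.sum_range_succ]
    calc _ ≤ _ := ih
      _ ≤ _ := add_le_add (h.step n) le_rfl
      _ = _ := by ring

/-- The recursion with crude terms. -/
theorem Rec3.glue (h : Rec3 p s 𝒢 S φ al cost D B X v)
    (h0 : ∀ a b, |s a - s b| < p.H * p.Δ 2)
    {n : ℕ} (hn : ∀ z, ∀ a ∈ S z, ∀ b ∈ S z, a ≠ b → p.Δ (n + 1) ≤ |s a - s b|)
    {F : Set (ℝ × ℝ)} (hF : MeasurableSet F) (hFg : ∀ z ∈ F, 𝒢 (S z))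
    (hFne : ∀ z ∈ F, (S z).Nonempty) :
    ∫⁻ z in F, φ 0 (S z) z ≤ (∫⁻ z, ∑ a ∈ S z, (φ n {a} z + 3 * D z)) +
      ∑ k ∈ Finset.range n, ∫⁻ z in Bᶜ, crude p s 𝒢 S cost k z :=
  calc ∫⁻ z in F, φ 0 (S z) z ≤ ∫⁻ z in F, Psi p s 𝒢 S (hat φ D B 0) D 0 z :=
        setLIntegral_mono' hF fun z hz =>
          (h.le_hat (hFg z hz) Subset.rfl).trans
            (Psi_zero_ge h.good h0 (hFg z hz) (hFne z hz))
    _ ≤ ∫⁻ z, Psi p s 𝒢 S (hat φ D B 0) D 0 z := setLIntegral_le_lintegral _ _
    _ ≤ (∫⁻ z, Psi p s 𝒢 S (hat φ D B n) D n z) +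
        ∑ k ∈ Finset.range n, ∫⁻ z in Bᶜ, crude p s 𝒢 S cost k z := h.steps n
    _ ≤ _ := by
        refine add_le_add (lintegral_mono fun z => ?_) le_rfl
        refine (Psi_last_le h.good (hn z)).trans ?_
        refine Finset.sum_le_sum fun a ha => ?_
        unfold hat
        split_ifs with hz
        · calc D z + 2 * D z = 3 * D z := by ring
            _ ≤ _ := le_add_self
        · refine add_le_add le_rfl ?_
          gcongr
          norm_num

end

end Vale.Agent.P112.H295
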